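import Vale.Agent.P354JK.Main
import Vale.Agent.P354H.Calc

/-!
P354 (helper51): the derivatives of a pull back are bounded by the seminorms.
-/

open scoped ContDiff
open Set Filter Topology Matrix

noncomputable section

namespace Vale.Agent.P354JP

open Vale.Agent.P354H Vale.Agent.P354J Vale.Agent.P354JK
open Vale.Agent.P354I (X wn)

section
variable {V W : Type} [NormedAddCommGroup V] [NormedSpace ℝ V] [NormedAddCommGroup W]
  [NormedSpace ℝ W]

theorem bd_add {m : ℕ} {f g : X3 → V} {x : X3} {c c' : ℝ} (hf : ContDiff ℝ ∞ f)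
    (hg : ContDiff ℝ ∞ g) (h : Bd m f x c) (h' : Bd m g x c') : Bd m (f + g) x (c + c') := by
  intro α hα
  rw [pdl_add α hf hg]
  exact norm_add_le_of_le (h α hα) (h' α hα)

theorem bd_sum {ι : Type} (s : Finset ι) {m : ℕ} {f : ι → X3 → V} {x : X3} {c : ℝ}
    (hf : ∀ i, ContDiff ℝ ∞ (f i)) (h : ∀ i, Bd m (f i) x c) :
    Bd m (fun y => ∑ i ∈ s, f i y) x (s.card * c) := by
  classical
  induction s using Finset.induction_on with
  | empty =>
    intro α _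
    have := congrFun (pdl_zero (V := V) α) x
    simp only [Finset.sum_empty, Finset.card_empty, Nat.cast_zero, zero_mul, norm_le_zero_iff]
    exact this
  | insert i s hi ih =>
    simp only [Finset.sum_insert hi, Finset.card_insert_of_notMem hi, Nat.cast_succ, add_mul,
      one_mul]
    rw [add_comm]
    exact bd_add (hf i) (ContDiff.sum fun i _ => hf i) (h i) ih

theorem bd_clm (L : V →L[ℝ] W) (hL : ∀ v, ‖L v‖ ≤ ‖v‖) {m : ℕ} {f : X3 → V} {x : X3} {c : ℝ}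
    (hf : ContDiff ℝ ∞ f) (h : Bd m f x c) : Bd m (fun y => L (f y)) x c := by
  intro α hα
  rw [P354J.pdl_clm L hf]
  exact (hL _).trans (h α hα)

theorem bd_ap (m : ℕ) : ∀ {A : X3 → V →L[ℝ] W} {u : X3 → V} {x : X3} {c c' : ℝ},
    ContDiff ℝ ∞ A → ContDiff ℝ ∞ u → Bd m A x c → Bd m u x c' →
    Bd m (ap A u) x (2 ^ m * c * c') := by
  induction m with
  | zero =>
    intro A u x c c' _ _ h h' α hα
    rw [List.length_eq_zero_iff.1 (Nat.le_zero.1 hα), pow_zero, one_mul]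
    exact ((A x).le_opNorm _).trans (mul_le_mul h.zero h'.zero (norm_nonneg _) h.nonneg)
  | succ m ih =>
    intro A u x c c' hA hu h h'
    have h0 := mul_nonneg h.nonneg h'.nonneg
    refine Bd.succ ?_ fun j => ?_
    · refine (((A x).le_opNorm _).trans (mul_le_mul h.zero h'.zero (norm_nonneg _) h.nonneg)).trans ?_
      rw [mul_assoc]
      exact le_mul_of_one_le_left h0 (one_le_pow₀ (by norm_num))
    · rw [pd_ap j hA hu]
      exact (bd_add (ap_sm (pd_sm j hA) hu) (ap_sm hA (pd_sm j hu))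
        (ih (pd_sm j hA) hu (h.pd j) (h'.mono m.le_succ le_rfl))
        (ih hA (pd_sm j hu) (h.mono m.le_succ le_rfl) (h'.pd j))).mono le_rfl (le_of_eq (by ring))

theorem bd_mul {m : ℕ} {f g : X3 → ℝ} {x : X3} {c c' : ℝ} (hf : ContDiff ℝ ∞ f)
    (hg : ContDiff ℝ ∞ g) (h : Bd m f x c) (h' : Bd m g x c') :
    Bd m (fun y => f y * g y) x (2 ^ m * c * c') :=
  bd_ap m (A := fun y => ContinuousLinearMap.mul ℝ ℝ (f y))
    ((ContinuousLinearMap.mul ℝ ℝ).contDiff.comp hf) hg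
    (bd_clm _ (ContinuousLinearMap.opNorm_mul_apply_le ℝ ℝ) hf h) h'

theorem bd_compact (m : ℕ) {K : Set X3} (hK : IsCompact K) : ∀ {f : X3 → V}, ContDiff ℝ ∞ f →
    ∃ C, 0 ≤ C ∧ ∀ x ∈ K, Bd m f x C := by
  induction m with
  | zero =>
    intro f hf
    obtain ⟨C, hC⟩ := hK.exists_bound_of_continuousOn hf.continuous.continuousOn
    refine ⟨max C 0, le_max_right _ _, fun x hx α hα => ?_⟩
    rw [List.length_eq_zero_iff.1 (Nat.le_zero.1 hα)]
    exact (hC x hx).trans (le_max_left _ _)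
  | succ m ih =>
    intro f hf
    obtain ⟨C, h0, hC⟩ := ih hf
    choose D hD0 hD using fun j => ih (pd_sm j hf)
    have h1 : 0 ≤ ∑ j, D j := Finset.sum_nonneg fun j _ => hD0 j
    refine ⟨C + ∑ j, D j, by positivity, fun x hx => Bd.succ ((hC x hx).zero.trans (by linarith))
      fun j => (hD j x hx).mono le_rfl ?_⟩
    linarith [Finset.single_le_sum (fun j _ => hD0 j) (Finset.mem_univ j)]

end

theorem bd_phi (m : ℕ) (R : ℝ) : ∃ C, 0 ≤ C ∧ ∀ σ (z : X3), ‖z.2‖ ≤ R →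
    Bd m (Phi σ) z (C * Real.exp z.1) := by
  choose C h0 hC using fun σ => bd_compact m
    ((isCompact_singleton (x := (0 : ℝ))).prod (isCompact_closedBall (0 : ℝ × ℝ) R)) (phi_smooth σ)
  refine ⟨C true + C false, add_nonneg (h0 _) (h0 _), fun σ z hz α hα => ?_⟩
  have e1 : tr (z.1, 0) (Phi σ) = Real.exp z.1 • Phi σ := by
    funext w
    simp only [tr, Phi, Prod.fst_add, Prod.snd_add, add_zero, Pi.smul_apply, smul_smul,
      Real.exp_add, mul_comm]
  have e2 := congrFun (pdl_tr α (z.1, 0) (Phi σ)) (0, z.2)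
  rw [e1, pdl_smul α _ (phi_smooth σ)] at e2
  simp only [tr, Prod.mk_add_mk, zero_add, add_zero, Pi.smul_apply] at e2
  rw [show pdl α (Phi σ) z = _ from e2.symm, norm_smul, Real.norm_of_nonneg (Real.exp_pos _).le,
    mul_comm]
  refine mul_le_mul_of_nonneg_right ((hC σ (0, z.2) ⟨rfl, mem_closedBall_zero_iff.2 hz⟩ α hα).trans
    ?_) (Real.exp_pos _).le
  cases σ <;> linarith [h0 true, h0 false]

theorem phi_ne (σ : Bool) (z : X3) : Phi σ z ∈ ({0}ᶜ : Set X) :=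
  norm_pos_iff.1 (norm_phi σ z ▸ Real.exp_pos _)

theorem bd_comp (R : ℝ) (m : ℕ) : ∃ C, 0 ≤ C ∧ ∀ (V : Type) [NormedAddCommGroup V]
    [NormedSpace ℝ V] (g : X → V), ContDiffOn ℝ ∞ g {0}ᶜ → ∀ σ (z : X3) (c : ℝ), ‖z.2‖ ≤ R →
    (∀ j ≤ m, Real.exp z.1 ^ j * ‖iteratedFDeriv ℝ j g (Phi σ z)‖ ≤ c) →
    Bd m (fun w => g (Phi σ w)) z (C * c) := by
  induction m with
  | zero =>
    refine ⟨1, zero_le_one, fun V _ _ g _ σ z c _ h α hα => ?_⟩
    rw [List.length_eq_zero_iff.1 (Nat.le_zero.1 hα)]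
    simpa [pdl] using h 0 le_rfl
  | succ m ih =>
    obtain ⟨C, h0, hC⟩ := ih
    obtain ⟨D, hD0, hD⟩ := bd_phi (m + 1) R
    refine ⟨1 + 2 ^ m * C * D, by positivity, fun V _ _ g hg σ z c hz h => ?_⟩
    have he := Real.exp_pos z.1
    have k0 : ‖g (Phi σ z)‖ ≤ c := by simpa using h 0 (Nat.zero_le _)
    have hc : 0 ≤ c := (norm_nonneg _).trans k0
    have h1 : 0 ≤ 2 ^ m * C * D * c := by positivity
    have hg' : ContDiffOn ℝ ∞ (fderiv ℝ g) {0}ᶜ := hg.fderiv_of_isOpen isOpen_compl_singleton le_rfl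
    refine Bd.succ (k0.trans (by linarith)) fun a => ?_
    rw [pd_comp isOpen_compl_singleton hg (phi_smooth σ) (phi_ne σ)]
    refine (bd_ap m (hg'.comp_contDiff (phi_smooth σ) (phi_ne σ)) (pd_sm a (phi_smooth σ))
      (hC _ _ hg' σ z (c / Real.exp z.1) hz fun j hj => ?_) ((hD σ z hz).pd a)).mono le_rfl ?_
    · rw [norm_iteratedFDeriv_fderiv, le_div_iff₀ he]
      exact le_trans (le_of_eq (by ring)) (h (j + 1) (by omega))
    · have : 2 ^ m * (C * (c / Real.exp z.1)) * (D * Real.exp z.1) = 2 ^ m * C * D * c := by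
        field_simp
      linarith

theorem le_of_wn {s ε : ℝ} {m : ℕ} {f : X → ℝ} (hε : 0 ≤ ε) (h : wn s m f ≤ ENNReal.ofReal ε)
    {j : ℕ} (hj : j ≤ m) {y : X} (hy : y ≠ 0) :
    √(1 + Real.log ‖y‖ ^ 2) ^ s * ‖y‖ ^ (2 + j) * ‖iteratedFDeriv ℝ j f y‖ ≤ ε := by
  refine (ENNReal.ofReal_le_ofReal_iff hε).1 (le_trans ?_ h)
  refine le_trans ?_ (Finset.single_le_sum (fun _ _ => zero_le)
    (Finset.mem_range.2 (Nat.lt_succ_of_le hj)))
  exact le_iSup₂_of_le y hy le_rfl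

theorem wt_pos (s : ℝ) (z : X3) : 0 < wt s z := by unfold wt; positivity

theorem le_wt {s ε : ℝ} {m : ℕ} {f : X → ℝ} (hε : 0 ≤ ε) (h : wn s m f ≤ ENNReal.ofReal ε)
    {j : ℕ} (hj : j ≤ m) (σ : Bool) (z : X3) :
    Real.exp z.1 ^ j * ‖iteratedFDeriv ℝ j f (Phi σ z)‖ ≤ ε * wt s z / Real.exp z.1 ^ 2 := by
  have k := le_of_wn hε h hj (phi_ne σ z)
  have he := Real.exp_pos z.1
  have hp : 0 < √(1 + z.1 ^ 2) ^ s := by positivity
  rw [norm_phi, Real.log_exp] at k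
  rw [wt, Real.rpow_neg (Real.sqrt_nonneg _), ← div_eq_mul_inv, le_div_iff₀ (by positivity),
    le_div_iff₀ hp]
  exact le_trans (le_of_eq (by ring)) k

/-- **PBE.** -/
theorem pbe : PBE := by
  intro m R
  obtain ⟨C, h0, hC⟩ := bd_comp R m
  obtain ⟨D, hD0, hD⟩ := bd_phi (m + 1) R
  refine ⟨9 * (2 ^ m * (2 ^ m * D * C) * D), by positivity, fun s ε F hε hF σ z hz a b => ?_⟩
  have he := Real.exp_pos z.1
  have sJ : ∀ a k, ContDiff ℝ ∞ fun w => pd a (Phi σ) w k := fun a k =>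
    (EuclideanSpace.proj k : X →L[ℝ] ℝ).contDiff.comp (pd_sm a (phi_smooth σ))
  have bJ : ∀ a k, Bd m (fun w => pd a (Phi σ) w k) z (D * Real.exp z.1) := fun a k =>
    bd_clm (EuclideanSpace.proj k : X →L[ℝ] ℝ) (fun v => PiLp.norm_apply_le v k)
      (pd_sm a (phi_smooth σ)) ((hD σ z hz).pd a)
  have sF : ∀ k l, ContDiff ℝ ∞ fun w => F (Phi σ w) k l := fun k l =>
    (hF k l).1.comp_contDiff (phi_smooth σ) (phi_ne σ)
  have bF : ∀ k l, Bd m (fun w => F (Phi σ w) k l) z (C * (ε * wt s z / Real.exp z.1 ^ 2)) :=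
    fun k l => hC ℝ _ (hF k l).1 σ z _ hz fun j hj => le_wt hε (hF k l).2 hj σ z
  have e1 : (fun w => pb σ F w a b) = fun w => ∑ p : Fin 3 × Fin 3,
      pd a (Phi σ) w p.2 * F (Phi σ w) p.2 p.1 * pd b (Phi σ) w p.1 := by
    funext w
    rw [pb_apply, Fintype.sum_prod_type]
    simp only [Finset.sum_mul]
    rfl
  rw [e1]
  refine (bd_sum (Finset.univ : Finset (Fin 3 × Fin 3))
    (fun p => ((sJ a p.2).mul (sF p.2 p.1)).mul (sJ b p.1)) fun p =>
    bd_mul ((sJ _ _).mul (sF _ _)) (sJ _ _) (bd_mul (sJ _ _) (sF _ _) (bJ _ _) (bF _ _))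
      (bJ _ _)).mono le_rfl (le_of_eq ?_)
  simp only [Finset.card_univ, Fintype.card_prod, Fintype.card_fin]
  push_cast
  field_simp

end Vale.Agent.P354JP
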